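import Vale.Agent.P235.H56.Families

/-! P235: the conjecture for every minor-closed family which excludes a graph all of whose
components are minors of graphs glued, at vertices, from planar graphs, copies of `K_{3,3}` and
planar graphs with a doubled cubic vertex. -/

namespace Vale.Agent.Results.P235.DisjointUnions

open SimpleGraph Vale.Agent.P235 Vale.Agent.P235.H134 Vale.Agent.P235.H56

/-- There is an absolute constant `C` with the following properties.
(1) `c₁(G) ≤ C`, even `EdgeIso`, for every connected graph `G` without a `K_{3,3}` minor.
(2) `c₁(G) ≤ C log (t + 2)` if deleting at most `t` vertices leaves components without a `K_{3,3}`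
minor.
(3) `c₁(G) ≤ C (w + log (t + 2))` if every 3-connected minor of `G` is planar, or has treewidth at
most `3`, or has pathwidth or shortest path depth at most `w` after deleting `t` vertices.
(4) `c₁(G) ≤ K(k, w, t)` if every 3-connected minor of `G` is planar, or has treewidth at most `k`,
or is as in (3).
(5) Let `Q r` be the `r × r` grid inside a triangle and two more vertices joined to this triangle;
`a` a vertex of the triangle, `x` one of the two vertices.  `c₁` is bounded, with `EdgeIso`, on
every minor-closed family which omits a connected minor of some `Q r`.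
(6) `TreePiece H`: `H` is a minor of a graph `T` which is built from a connected planar graph or a
connected minor of some `Q r` by gluing, again and again, at any vertex, connected rooted graphs
which are planar, or `K_{3,3}`, or a rooted minor of some `(Q r, a)`; and `T` can also be built in
this way with `x` in place of `a` (for example: all blocks of `H` are planar or `K_{3,3}` except
one, which is a minor of some `Q r`).  Let every component of the finite graph `H` be a `TreePiece`.
Then `c₁(G) ≤ K(H)` for all connected graphs `G` without a minor `H`, and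
`c₁(G) ≤ C (K + log (t + 2))` if deleting at most `t` vertices leaves components without a minor
`H`.
(7) `c₁` is bounded on every minor-closed family `F` which omits a connected `TreePiece`, or no
member of which has a graph `H` as in (6) as a minor. -/
theorem result : ∃ C : ℝ, 1 ≤ C ∧
    (∀ (V : Type) [Finite V] (G : SimpleGraph V), G.Connected →
      ¬ IsMinor (completeBipartiteGraph (Fin 3) (Fin 3)) G → EdgeIso G C ∧ DistortionLE G C) ∧
    (∀ (t : ℕ) (V : Type) [Finite V] (G : SimpleGraph V), G.Connected →
      (∃ S : Set V, S.ncard ≤ t ∧
        ∀ u ∉ S, ¬ IsMinor (completeBipartiteGraph (Fin 3) (Fin 3)) (G.induce (compSet G S u))) →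
        DistortionLE G (C * Real.log (t + 2))) ∧
    (∀ (w t : ℕ) (V : Type) [Finite V] (G : SimpleGraph V), G.Connected →
      (∀ (W : Type) [Finite W] (H : SimpleGraph W), H.Connected → Conn3 H → IsMinor H G →
        ST.H626.PlanePiece w t W H) →
        EdgeIso G (C * (w + Real.log (t + 2))) ∧ DistortionLE G (C * (w + Real.log (t + 2)))) ∧
    (∀ k w t : ℕ, ∃ K : ℝ, ∀ (V : Type) [Finite V] (G : SimpleGraph V), G.Connected →
      (∀ (W : Type) [Finite W] (H : SimpleGraph W), H.Connected → Conn3 H → IsMinor H G →
        ST.H945.PlaneTw k w t W H) → EdgeIso G K ∧ DistortionLE G K) ∧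
    (∀ F : (V : Type) → SimpleGraph V → Prop, MinorClosed F →
      (∃ (r : ℕ) (W : Type) (_ : Finite W) (H : SimpleGraph W), H.Connected ∧
        IsMinor H (H830.Q r) ∧ ¬ F W H) →
      ∃ K : ℝ, ∀ (V : Type) [Finite V] (G : SimpleGraph V), G.Connected → F V G →
        EdgeIso G K ∧ DistortionLE G K) ∧
    (∀ (W : Type) [Finite W] (H : SimpleGraph W),
      (∀ c : H.ConnectedComponent, TreePiece (H.induce c.supp)) →
      ∃ K : ℝ, (∀ (V : Type) [Finite V] (G : SimpleGraph V), G.Connected → ¬ IsMinor H G →
        DistortionLE G K) ∧
      ∀ (t : ℕ) (V : Type) [Finite V] (G : SimpleGraph V), G.Connected →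
        (∃ S : Set V, S.ncard ≤ t ∧ ∀ u ∉ S, ¬ IsMinor H (G.induce (compSet G S u))) →
          DistortionLE G (C * (K + Real.log (t + 2)))) ∧
    (∀ F : (V : Type) → SimpleGraph V → Prop, MinorClosed F →
      ((∃ (W : Type) (_ : Finite W) (H : SimpleGraph W), H.Connected ∧ TreePiece H ∧ ¬ F W H) ∨
      (∃ (W : Type) (_ : Finite W) (H : SimpleGraph W),
        (∀ c : H.ConnectedComponent, TreePiece (H.induce c.supp)) ∧
        ∀ (V : Type) [Finite V] (G : SimpleGraph V), F V G → ¬ IsMinor H G)) →
      ∃ K : ℝ, ∀ (V : Type) [Finite V] (G : SimpleGraph V), G.Connected → F V G →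
        DistortionLE G K) :=
  H56.main_of H830.sPrime H638.monoQ (P := fun _ H => TreePiece H) fun _ _ _ h => H56.free_tree h

end Vale.Agent.Results.P235.DisjointUnions
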