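import Vale.Agent.P235.K5.H56.Final5

/-! P235: `c₁` is bounded on every minor-closed family which omits a connected graph drawn in the plane
with one crossing (for example `K₅`), and on all sums, along cliques with at most three vertices, of
graphs which embed with bounded distortion, each single edge exactly. -/

namespace Vale.Agent.Results.P235.K5MinorFree

open SimpleGraph Vale.Agent.P235 Vale.Agent.P235.H134 Vale.Agent.P235.H56
open Vale.Agent.P235.K5 Vale.Agent.P235.K5.H56.Z
open Vale.Agent.P235.H350 (QuasiFour)

/-- `CliqueSum 3 P H`: the pieces `(B, R)` in `P` are glued on, one after another, along cliques `R`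
with at most three vertices (`R` is empty for the first piece).
`GPiece k w t r D B`: `EdgeIso B D`, or every connected quasi-4-connected minor of `B` is planar, or
has treewidth at most `k`, or has pathwidth or shortest path depth at most `w` after deleting `t`
vertices, or has no minor `K₅`, or no minor `CrossGrid r`, or is `EdgeIso` with constant `D`.
(1) For all `k`, `w`, `t`, `r` and `D` there is `K` such that, for all connected spanning subgraphs
`G` of `H`: `EdgeIso G K` if `H` is a sum, along cliques with at most three vertices, of graphs in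
`GPiece k w t r D`; and `c₁(G) ≤ K` if moreover arbitrary graphs `B` with `c₁(B) ≤ D` are used as the
first piece and glued on at one vertex.
(2) For every `D` there is `K` such that: if a class `Q` is closed under isomorphism and under gluing
two graphs along an edge, and `c₁ ≤ D` on its connected members, then `EdgeIso G K` and `c₁(G) ≤ K`
for all connected spanning subgraphs `G` of sums, along cliques with at most three vertices, of graphs
in `Q`.
There is an absolute constant `C` with the following properties (3), (4), (5).
(3) `EdgeIso G C` and `c₁(G) ≤ C` if the connected graph `G` has no `K₅` minor.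
(4) `EdgeIso` and `c₁(G) ≤ C (w + log (t + 2))` if every connected 3-connected minor of the connected
graph `G` is planar, or has treewidth at most `3`, or has pathwidth or shortest path depth at most `w`
after deleting `t` vertices, or has no `K₅` minor.
(5) `CrossGrid r`: the `r × r` grid, a vertex `p` joined to the first and the last row, and a vertex
joined to the first and the last column.
`XTree T`: `T` is built from a connected graph which is planar, or drawn in the plane with one
crossing, or a minor of some `CrossGrid r`, by gluing, again and again, at any vertex, connected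
graphs which are planar, or `K₅`, or `K_{3,3}`, or a rooted minor of some `(CrossGrid r, p)`.
`XPiece H`: `H` is a minor of a graph in `XTree`.
Let every component of the finite graph `H` be an `XPiece`.  Then `c₁(G) ≤ K(H)` for all connected
graphs `G` without a minor `H`, and `c₁(G) ≤ C (K + log (t + 2))` if deleting at most `t` vertices
leaves components without a minor `H`.
(6) For every `XPiece H` there is `K` such that `c₁(G) ≤ K (m + 1)³ log (m + 2)` if the connected
graph `G` has no `m + 1` pairwise disjoint connected sets `A` such that `G[A]` has a minor `H`.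
(7) `c₁` is bounded on every minor-closed family `F` which omits a connected `XPiece`, or no member
of which has a graph `H` as in (5) as a minor.
(8) `c₁` is bounded on every minor-closed family which omits some connected graph, if and only if, for
every `n`, all connected quasi-4-connected graphs without a minor `K_n` are `EdgeIso` with one
constant. -/
theorem result :
    (∀ (k w t r : ℕ) (D : ℝ), ∃ K : ℝ, ∀ (V : Type) [Finite V] (G H : SimpleGraph V), G ≤ H →
      G.Connected →
      (CliqueSum 3 (fun V B _ => GPiece k w t r D V B) H → EdgeIso G K) ∧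
      (CliqueSum 3 (fun V B R => GPiece k w t r D V B ∨ R.ncard ≤ 1 ∧ DistortionLE B D) H →
        DistortionLE G K)) ∧
    (∀ D : ℝ, ∃ K : ℝ, ∀ Q : ∀ V : Type, SimpleGraph V → Prop,
      (∀ (V W : Type) (G : SimpleGraph V) (H : SimpleGraph W), Nonempty (G ≃g H) →
        Q V G → Q W H) →
      (∀ (V : Type) [Finite V] (G : SimpleGraph V) (A B : Set V) (s t : V), G.Adj s t →
        A ∪ B = Set.univ → A ∩ B = {s, t} → (∀ u v, u ∉ B → v ∉ A → ¬ G.Adj u v) →
        Q A (G.induce A) → Q B (G.induce B) → Q V G) →
      (∀ (V : Type) [Finite V] (G : SimpleGraph V), G.Connected → Q V G → DistortionLE G D) →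
      ∀ (V : Type) [Finite V] (G H : SimpleGraph V), G ≤ H → G.Connected →
        CliqueSum 3 (fun V B _ => Q V B) H → EdgeIso G K ∧ DistortionLE G K) ∧
    (∃ C : ℝ, 1 ≤ C ∧
    (∀ (V : Type) [Finite V] (G : SimpleGraph V), G.Connected →
      ¬ IsMinor (⊤ : SimpleGraph (Fin 5)) G → EdgeIso G C ∧ DistortionLE G C) ∧
    (∀ (w t : ℕ) (V : Type) [Finite V] (G : SimpleGraph V), G.Connected →
      (∀ (W : Type) [Finite W] (H : SimpleGraph W), H.Connected → Conn3 H → IsMinor H G →
        ST.H626.PlanePiece w t W H ∨ ¬ IsMinor (⊤ : SimpleGraph (Fin 5)) H) →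
        EdgeIso G (C * (w + Real.log (t + 2))) ∧ DistortionLE G (C * (w + Real.log (t + 2)))) ∧
    (∀ (W : Type) [Finite W] (H : SimpleGraph W),
      (∀ c : H.ConnectedComponent, XPiece (H.induce c.supp)) →
      ∃ K : ℝ, (∀ (V : Type) [Finite V] (G : SimpleGraph V), G.Connected → ¬ IsMinor H G →
        DistortionLE G K) ∧
      ∀ (t : ℕ) (V : Type) [Finite V] (G : SimpleGraph V), G.Connected →
        (∃ S : Set V, S.ncard ≤ t ∧ ∀ u ∉ S, ¬ IsMinor H (G.induce (compSet G S u))) →
          DistortionLE G (C * (K + Real.log (t + 2))))) ∧
    (∀ (W : Type) (H : SimpleGraph W), XPiece H →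
      ∃ K : ℝ, ∀ (m : ℕ) (V : Type) [Finite V] (G : SimpleGraph V), G.Connected →
      (¬ ∃ A : Fin (m + 1) → Set V, (∀ i, (G.induce (A i)).Connected ∧
        IsMinor H (G.induce (A i))) ∧ ∀ i j, i ≠ j → Disjoint (A i) (A j)) →
        DistortionLE G (K * ((m : ℝ) + 1) ^ 3 * Real.log ((m : ℝ) + 2))) ∧
    (∀ F : (V : Type) → SimpleGraph V → Prop, MinorClosed F →
      ((∃ (W : Type) (_ : Finite W) (H : SimpleGraph W), H.Connected ∧ XPiece H ∧ ¬ F W H) ∨
      (∃ (W : Type) (_ : Finite W) (H : SimpleGraph W),
        (∀ c : H.ConnectedComponent, XPiece (H.induce c.supp)) ∧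
        ∀ (V : Type) [Finite V] (G : SimpleGraph V), F V G → ¬ IsMinor H G)) →
      ∃ K : ℝ, ∀ (V : Type) [Finite V] (G : SimpleGraph V), G.Connected → F V G →
        DistortionLE G K) ∧
    ((∀ F : (V : Type) → SimpleGraph V → Prop, MinorClosed F →
      (∃ (W : Type) (_ : Finite W) (H : SimpleGraph W), H.Connected ∧ ¬ F W H) →
      ∃ K : ℝ, ∀ (V : Type) [Finite V] (G : SimpleGraph V), G.Connected → F V G →
        DistortionLE G K) ↔
    ∀ n : ℕ, ∃ D : ℝ, ∀ (V : Type) [Finite V] (G : SimpleGraph V), G.Connected → QuasiFour G →
      ¬ IsMinor (⊤ : SimpleGraph (Fin n)) G → EdgeIso G D) :=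
  K5.H56.Z.final5

end Vale.Agent.Results.P235.K5MinorFree
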