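import Vale.Agent.P235.H606.Nested
import Vale.Agent.P235.H12.Plug
import Vale.Agent.P235.H502.StarS
import Vale.Agent.P235.H953.Nest
import Vale.Agent.P235.H953.Compo
import Vale.Agent.P235.H536Q.VitS
import Vale.Agent.P235.H222.Cmp
import Vale.Agent.P235.H750.Ret
import Vale.Agent.P235.H252.Spa
import Vale.Agent.P235.H786.W
import Vale.Agent.P235.H786.W4
import Vale.Agent.P235.H535.Conn
import Vale.Agent.P235.H749.Cliq
import Vale.Agent.P235.H105.W.Glue
import Vale.Agent.P235.K5.H316.Final

/-! P235: a graph with large `c₁` is a large `c₁` graph of disjoint connected pieces with large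
`c₁`. -/

namespace Vale.Agent.Results.P235.NestedDistortion

open Vale.Agent.P235 Vale.Agent.P235.H134 Vale.Agent.P235.H606
open Vale.Agent.P235.H12 (Star)
open Vale.Agent.P235.H750 (BadMinor SelfStmt NestStmt)
open Vale.Agent.P235.H786 (TDec bd tor RootTw RootAt NoKur)
open Vale.Agent.P235.K5.H316 (EmbedsOn InLarge)

/-- `BadMinor G C C'`: `G` has a connected minor `Q` with `c₁(Q) > C'`, all of whose branch sets `A`
have `c₁(G[A]) > C`.  `Packing G C m`: `m + 1` pairwise disjoint connected sets `A` with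
`c₁(G[A]) > C`.  `Star G C k Z D`: `k` such sets, off the connected set `Z`, each joined to `Z` by an
edge.

(1) For every `C` there is `K` such that every finite connected graph with `c₁(G) > K` has a
`BadMinor G C C`.
(2) `c₁` is bounded on a class of finite connected graphs if and only if for some `C` no member has
a `BadMinor G C C`.
(3) For every `C ≥ 1` there is `K` such that every finite connected graph `G` without a
`Packing G C m` satisfies `c₁(G) ≤ K (m + 1)³ log (m + 2)` and `c₁(G) ≤ K (m + 1)⁶ √(log (m + 2))`.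
There is an absolute `K` such that for connected graphs `G` without a `K_r` minor
(4) if `P` is a property of vertex sets which passes to larger sets, `c₁(G[A]) ≤ C` for all
connected `A` without `P` and `c₁(Q) ≤ C'` for all connected quotients `Q` of `G` with connected
fibres with `P`, then `c₁(G) ≤ K (r + 2)⁹ (C + C')`;
(5) without `Packing G C m`: `c₁(G) ≤ K (r + 2)³ (C + log (m + 2))` and
`c₁(G) ≤ K (r + 2)⁶ (C + √(log (m + 2)))`;
(6) without a star of `k` sets: `c₁(G) ≤ K (r + 2)³ (C + (k + 1) log (k + 2))` and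
`c₁(G) ≤ K (r + 2)⁶ (C + √((k + 1) log (k + 2)))`;
(7) if `c₁ ≤ C` on the connected graphs without a minor `H_c`, for every component `H_c` of the
finite graph `H`, then `c₁ ≤ K (|H| + 2)³ (C + log (|H| + 2))` on the connected graphs without a
minor `H`;
(8) for positive edge lengths and a nonempty set `X` of vertices whose metric has distortion at most
`B`: if `c₁ ≤ C` for all balls of radius less than `δ d(v, X)` around `v`, for all `v`, then the
metric has distortion at most `K (r + 2)³ (C / δ + B)`.

`TDec G T B`: a tree decomposition of `G`, tree `T`, bags `B t` of any size; `tor G T B t`: the torso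
of the bag `B t`.  `bd T B t`: the vertices of `B t` in an adjacent bag.  `NoKur`: no minor `K₅` and
no minor `K_{3,3}`.  `RootTw G T B k`: every minor of a torso with branch sets covering the bag
`B t` and all meeting `bd T B t` has treewidth at most `k`; `RootAt NoKur G T B k t`: for this `t`,
every such minor is `NoKur` or has treewidth at most `k`.
(9) For all `C`, `w` there is `K` such that every finite connected graph `G` with a decomposition
`TDec G T B` satisfies `c₁(G) ≤ K` if for each bag `B t`: its torso has no minor `K₅` and no minor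
`K_{3,3}`; or its torso has treewidth at most `w`; or `c₁(G[A]) ≤ C` for all connected sets `A`
inside the bag, and `bd T B t` has at most `w + 1` vertices or `RootAt NoKur G T B w t`.
(10) There is an absolute `K` such that for connected graphs `G` without a `K_r` minor, with a
decomposition `TDec G T B` and `c₁(G[A]) ≤ C` for all connected sets `A` inside a bag (`C ≥ 1`), if
all `bd T B t` have at most `k + 1` vertices or `RootTw G T B k`, then
`c₁(G) ≤ K (r + 2)⁹ (C + 2 ^ (600 (k + 1)⁹ + 12 * 2 ^ k))`.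

`EmbedsOn d P D`: a map into some `L₁` which does not expand `d` and shrinks the distances of the
pairs in `P` at most `D` times.  `InLarge G T B w`: the pairs of vertices in a common bag whose
torso has treewidth more than `w`.
(11) For all `k`, `w` and `D ≥ 1` there is `K` such that for every finite connected graph `G` with a
decomposition `TDec G T B` in which adjacent bags share at most `k` vertices, and all positive edge
lengths: if the path metric has `EmbedsOn d (InLarge G T B w) D`, then it embeds into `L₁` with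
distortion `K`; and if it embeds with distortion `D`, then it has `EmbedsOn d (InLarge G T B w) D`.
(12) Clause (9) for decompositions in which adjacent bags share at most `3` vertices, with `NoKur`
replaced by any minor closed property `PP` for which some `D` has `EdgeIso G D` for all finite
connected graphs `G` with `PP`: for all positive edge lengths and every edge `e` there is an
embedding into `L₁` with distortion `D` which is isometric on `e`.
-/
theorem result :
    (∀ C : ℝ, ∃ K : ℝ, ∀ (V : Type) [Finite V] (G : SimpleGraph V), G.Connected →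
      ¬ DistortionLE G K → BadMinor G C C) ∧
    (∀ F : (V : Type) → SimpleGraph V → Prop,
      (∃ C : ℝ, ∀ (V : Type) [Finite V] (G : SimpleGraph V), G.Connected → F V G →
        DistortionLE G C) ↔
      ∃ C : ℝ, ∀ (V : Type) [Finite V] (G : SimpleGraph V), G.Connected → F V G →
        ¬ BadMinor G C C) ∧
    (∀ C : ℝ, 1 ≤ C → ∃ K : ℝ, ∀ (m : ℕ) (V : Type) [Finite V] (G : SimpleGraph V), G.Connected →
      ¬ Packing G C m →
        DistortionLE G (K * ((m : ℝ) + 1) ^ 3 * Real.log ((m : ℝ) + 2)) ∧
        DistortionLE G (K * ((m : ℝ) + 1) ^ 6 * √(Real.log ((m : ℝ) + 2)))) ∧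
    (∃ K : ℝ, 1 ≤ K ∧
      (∀ (r : ℕ) (C C' : ℝ) (V : Type) [Finite V] (G : SimpleGraph V) (P : Set V → Prop),
        1 ≤ C → 1 ≤ C' → G.Connected → ¬ IsMinor (⊤ : SimpleGraph (Fin r)) G →
        (∀ A B : Set V, A ⊆ B → P A → P B) →
        (∀ A : Set V, (G.induce A).Connected → ¬ P A → DistortionLE (G.induce A) C) →
        (∀ (W : Type) [Finite W] (Q : SimpleGraph W) (p : V → W), Q.Connected →
          (∀ a, (G.induce {v | p v = a}).Connected ∧ P {v | p v = a}) →
          (∀ a b, Q.Adj a b → ∃ u v, G.Adj u v ∧ p u = a ∧ p v = b) →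
          (∀ u v, G.Adj u v → p u ≠ p v → Q.Adj (p u) (p v)) → DistortionLE Q C') →
        DistortionLE G (K * ((r : ℝ) + 2) ^ 9 * (C + C'))) ∧
      (∀ (r m : ℕ) (C : ℝ) (V : Type) [Finite V] (G : SimpleGraph V), 1 ≤ C → G.Connected →
        ¬ IsMinor (⊤ : SimpleGraph (Fin r)) G → ¬ Packing G C m →
          DistortionLE G (K * ((r : ℝ) + 2) ^ 3 * (C + Real.log ((m : ℝ) + 2))) ∧
          DistortionLE G (K * ((r : ℝ) + 2) ^ 6 * (C + √(Real.log ((m : ℝ) + 2))))) ∧
      (∀ (r k : ℕ) (C : ℝ) (V : Type) [Finite V] (G : SimpleGraph V), 1 ≤ C → G.Connected →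
        ¬ IsMinor (⊤ : SimpleGraph (Fin r)) G →
        (¬ ∃ (Z : Set V) (D : Fin k → Set V), Star G C k Z D) →
          DistortionLE G
            (K * ((r : ℝ) + 2) ^ 3 * (C + ((k : ℝ) + 1) * Real.log ((k : ℝ) + 2))) ∧
          DistortionLE G
            (K * ((r : ℝ) + 2) ^ 6 * (C + √(((k : ℝ) + 1) * Real.log ((k : ℝ) + 2))))) ∧
      (∀ (W : Type) [Finite W] (H : SimpleGraph W) (C : ℝ), 1 ≤ C →
        (∀ c : H.ConnectedComponent, ∀ (V : Type) [Finite V] (G : SimpleGraph V), G.Connected →
          ¬ IsMinor (H.induce c.supp) G → DistortionLE G C) →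
        ∀ (V : Type) [Finite V] (G : SimpleGraph V), G.Connected → ¬ IsMinor H G →
          DistortionLE G
            (K * ((Nat.card W : ℝ) + 2) ^ 3 * (C + Real.log ((Nat.card W : ℝ) + 2)))) ∧
      ∀ (V : Type) [Finite V] (G : SimpleGraph V) (ℓ : Sym2 V → ℝ) (r : ℕ) (X : Set V)
        (B C δ : ℝ), G.Connected → ¬ IsMinor (⊤ : SimpleGraph (Fin r)) G →
        (∀ e ∈ G.edgeSet, 0 < ℓ e) → X.Nonempty → 1 ≤ B → 1 ≤ C → 0 < δ → δ ≤ 1 →
        EmbedsL1 (fun x y : X => pathDist G ℓ x y) B →
        (∀ (v : V) (ρ : ℝ), 0 ≤ ρ → (∀ x ∈ X, ρ < δ * pathDist G ℓ v x) →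
          DistortionLE (G.induce {u | pathDist G ℓ v u ≤ ρ}) C) →
        EmbedsL1 (pathDist G ℓ) (K * ((r : ℝ) + 2) ^ 3 * (C / δ + B))) ∧
    (∀ (w : ℕ) (C : ℝ), ∃ K : ℝ, ∀ (V ι : Type) [Finite V] [Finite ι] (G : SimpleGraph V)
      (T : SimpleGraph ι) (B : ι → Set V), G.Connected → TDec G T B →
      (∀ t, NoKur (B t) ((tor G T B t).induce (B t)) ∨
        TreewidthLE ((tor G T B t).induce (B t)) w ∨
        ((∀ A, A ⊆ B t → (G.induce A).Connected → DistortionLE (G.induce A) C) ∧
          ((bd T B t).ncard ≤ w + 1 ∨ RootAt NoKur G T B w t))) → DistortionLE G K) ∧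
    (∃ K : ℝ, 1 ≤ K ∧ ∀ (r k : ℕ) (C : ℝ) (V ι : Type) [Finite V] [Finite ι] (G : SimpleGraph V)
      (T : SimpleGraph ι) (B : ι → Set V), 1 ≤ C → G.Connected →
      ¬ IsMinor (⊤ : SimpleGraph (Fin r)) G → TDec G T B →
      (∀ (t : ι) (A : Set V), A ⊆ B t → (G.induce A).Connected → DistortionLE (G.induce A) C) →
      (∀ t, (bd T B t).ncard ≤ k + 1) ∨ RootTw G T B k →
        DistortionLE G (K * ((r : ℝ) + 2) ^ 9 * (C + 2 ^ (600 * (k + 1) ^ 9 + 12 * 2 ^ k)))) ∧
    (∀ (k w : ℕ) (D : ℝ), 1 ≤ D → ∃ K : ℝ, 1 ≤ K ∧ ∀ (V ι : Type) [Finite V] [Finite ι]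
      (G : SimpleGraph V) (T : SimpleGraph ι) (B : ι → Set V), G.Connected → TDec G T B →
      (∀ t s, T.Adj t s → (B t ∩ B s).ncard ≤ k) →
      ∀ ℓ : Sym2 V → ℝ, (∀ e ∈ G.edgeSet, 0 < ℓ e) →
        (EmbedsOn (pathDist G ℓ) (InLarge G T B w) D → EmbedsL1 (pathDist G ℓ) K) ∧
        (EmbedsL1 (pathDist G ℓ) D → EmbedsOn (pathDist G ℓ) (InLarge G T B w) D)) ∧
    ∀ (PP : ∀ V : Type, SimpleGraph V → Prop) (D : ℝ),
      (∀ (V W : Type) [Finite V] [Finite W] (G : SimpleGraph V) (H : SimpleGraph W),
        IsMinor H G → PP V G → PP W H) →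
      (∀ (V : Type) [Finite V] (G : SimpleGraph V), G.Connected → PP V G → EdgeIso G D) →
      ∀ (w : ℕ) (C : ℝ), ∃ K : ℝ, ∀ (V ι : Type) [Finite V] [Finite ι] (G : SimpleGraph V)
        (T : SimpleGraph ι) (B : ι → Set V), G.Connected → TDec G T B →
        (∀ t s, T.Adj t s → (B t ∩ B s).ncard ≤ 3) →
        (∀ t, PP (B t) ((tor G T B t).induce (B t)) ∨
          TreewidthLE ((tor G T B t).induce (B t)) w ∨
          ((∀ A, A ⊆ B t → (G.induce A).Connected → DistortionLE (G.induce A) C) ∧
            ((bd T B t).ncard ≤ w + 1 ∨ RootAt PP G T B w t))) → DistortionLE G K := by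
  have hNest : NestStmt := H953.nest H536Q.vitS (H252.spa H750.retStmt H222.cmp) H12.varStmt
  have hSelf : SelfStmt := H953.self hNest H12.badKStmt H406.mono
  obtain ⟨h1, h2, h3, h4⟩ := nested hSelf H406.mono H12.allStmt hNest H12.packStmt
    (H502.starS H12.packStmt) H12.compStmt H12.varStmt
  refine ⟨h1, h2, h3, h4, H786.w3 hSelf, ?_, fun k w D hD => ?_,
    fun PP D hmin hD w C => H786.w4 hSelf hmin hD w C⟩
  · obtain ⟨K, hK1, hK⟩ := H786.w1 hNest
    obtain ⟨K', -, hK'⟩ := H786.w2 H535.conn (H105.W.glue H749.cliq) hNest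
    refine ⟨max K K', hK1.trans (le_max_left _ _),
      fun r k C V ι _ _ G T B hC hG hr hT hb hk => ?_⟩
    rcases hk with hk | hk
    · refine (hK r k C V ι G T B hC hG hr hT hk hb).mono ?_
      gcongr
      exact le_max_left _ _
    · refine (hK' r k C V ι G T B hC hG hr hT hk hb).mono ?_
      gcongr
      exact le_max_right _ _
  · obtain ⟨K, hK, H⟩ := K5.H316.local_global k w D hD
    exact ⟨K, hK, fun V ι _ _ G T B hG hT hk ℓ hℓ => ⟨H V ι G T B hG hT hk ℓ hℓ,
      fun h => K5.H316.on_of_embeds (by linarith) h _⟩⟩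

end Vale.Agent.Results.P235.NestedDistortion
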