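import Vale.Agent.P235.H45.Star.CXFin

/-!
P235: unlimited edge sums and clique sums of graphs of bounded distortion, at cliques covered (edge
sums) or almost covered by few vertices of each piece.
-/

namespace Vale.Agent.Results.P235.StarSums

open Vale.Agent.P235 Vale.Agent.P235.H141.Star Vale.Agent.P235.H45.Star

/-- There is an absolute constant `K` with the following properties.

`MSum R G E`: the graph `G` with its marked edges `E` is obtained from pieces in `R` by gluing, any
number of times and in any order, two graphs along one edge which is marked in both; and by deleting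
edges and marks.  `StarPiece P Q k`: a graph of the class `P` with any marked edges, or a graph of
the class `Q` whose marked edges are covered by at most `k` vertices.

(1) Let the connected graphs of `P` be `EdgeIso D` and `c₁ ≤ C` for the connected graphs of `Q`.
Then `c₁(G) ≤ K C (D + C log (k + 2))` for every connected `MSum (StarPiece P Q k) G E`.
(2) In particular, with an absolute constant, for the pieces `Tame w t` (every `3`-connected minor
is planar, or has treewidth at most `3`, or has pathwidth or shortest path depth at most `w` after
deleting `t` vertices; or there is no `K_{3,3}` minor) and any graphs with `c₁ ≤ C`.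
(3) `c₁(G) ≤ B(C, k)` for `G` in `CSum (c₁ ≤ C) k`: the connected spanning subgraphs of clique sums,
of unlimited length, of pieces with `c₁ ≤ C`, over cliques with at most `k` vertices, where every
root clique glued to a piece has at most one vertex outside `k` centres and the root clique of this
piece.
(4) `c₁` is bounded on `Nest2 w j`, `j` rounds in which the sums of (2) and (3) (with the graphs of
the earlier round as pieces) are mixed with all operations of `AllOps`. -/
theorem result : ∃ K : ℝ, 1 ≤ K ∧
    (∀ (P Q : ∀ V : Type, SimpleGraph V → Prop) (D C : ℝ) (k : ℕ), 1 ≤ D → 1 ≤ C →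
      (∀ (V : Type) [Finite V] (G : SimpleGraph V), G.Connected → P V G → EdgeIso G D) →
      (∀ (V : Type) [Finite V] (G : SimpleGraph V), G.Connected → Q V G → DistortionLE G C) →
      ∀ (V : Type) [Finite V] (G E : SimpleGraph V), G.Connected → MSum (StarPiece P Q k) G E →
        DistortionLE G (K * C * (D + C * Real.log (k + 2)))) ∧
    (∀ (w t k : ℕ) (C : ℝ), 1 ≤ C → ∀ (V : Type) [Finite V] (G E : SimpleGraph V),
      G.Connected → MSum (StarPiece (Tame w t) (fun _ G => DistortionLE G C) k) G E →
        DistortionLE G (K * C * (w + Real.log (t + 2) + C * Real.log (k + 2)))) ∧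
    (∀ (C : ℝ) (k : ℕ), ∃ B : ℝ, ∀ (V : Type) [Finite V] (G : SimpleGraph V), G.Connected →
      CSum (fun _ G => DistortionLE G C) k G → DistortionLE G B) ∧
    (∀ w j : ℕ, ∃ B : ℝ, ∀ (V : Type) [Finite V] (G : SimpleGraph V), G.Connected →
      Nest2 w j V G → DistortionLE G B) :=
  all2 CXPlug.cen

end Vale.Agent.Results.P235.StarSums
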